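import Vale.Agent.P018.H867S.Pow

/-!
# P018, power saving, block S: the excluded set of a prime `p` is a union of `p`-adic balls.
-/

namespace Vale.Agent.P018.H867S

open Filter Topology Vale.Agent.P018.H867

/-- a family of balls can be made disjoint. -/
theorem exists_disjoint_balls {R : ℕ → Prop} {p : ℕ} : ∀ (k : ℕ) (M : Finset (ℕ × ℕ)),
    M.card = k → (∀ n, R n ↔ ∃ z ∈ M, n ≡ z.2 [MOD p ^ z.1]) →
    ∃ M1 ⊆ M, (∀ n, R n ↔ ∃ z ∈ M1, n ≡ z.2 [MOD p ^ z.1]) ∧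
      ∀ z ∈ M1, ∀ w ∈ M1, ∀ n, n ≡ z.2 [MOD p ^ z.1] → n ≡ w.2 [MOD p ^ w.1] → z = w := by
  classical
  intro k
  induction k using Nat.strong_induction_on with
  | _ k ih =>
    intro M hk hM
    by_cases h : ∃ z ∈ M, ∃ w ∈ M, z ≠ w ∧ z.1 ≤ w.1 ∧
        ∃ n, n ≡ z.2 [MOD p ^ z.1] ∧ n ≡ w.2 [MOD p ^ w.1]
    · obtain ⟨z, hz, w, hw, hne, hle, n, hnz, hnw⟩ := h
      have hdvd : p ^ z.1 ∣ p ^ w.1 := pow_dvd_pow p hle
      have hsub : ∀ m, m ≡ w.2 [MOD p ^ w.1] → m ≡ z.2 [MOD p ^ z.1] := fun m hm =>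
        ((hm.trans hnw.symm).of_dvd hdvd).trans hnz
      have hM' : ∀ m, R m ↔ ∃ y ∈ M.erase w, m ≡ y.2 [MOD p ^ y.1] := by
        intro m
        rw [hM m]
        constructor
        · rintro ⟨y, hy, hmy⟩
          by_cases hyw : y = w
          · rw [hyw] at hmy
            exact ⟨z, Finset.mem_erase.2 ⟨hne, hz⟩, hsub m hmy⟩
          · exact ⟨y, Finset.mem_erase.2 ⟨hyw, hy⟩, hmy⟩
        · rintro ⟨y, hy, hmy⟩
          exact ⟨y, Finset.mem_of_mem_erase hy, hmy⟩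
      have hcard : (M.erase w).card < k := by
        rw [← hk]
        exact Finset.card_erase_lt_of_mem hw
      obtain ⟨M1, h1, h2, h3⟩ := ih _ hcard (M.erase w) rfl hM'
      exact ⟨M1, h1.trans (Finset.erase_subset w M), h2, h3⟩
    · refine ⟨M, subset_rfl, hM, ?_⟩
      intro z hz w hw n hnz hnw
      by_contra hne
      rcases le_total z.1 w.1 with hle | hle
      · exact h ⟨z, hz, w, hw, hne, hle, n, hnz, hnw⟩
      · exact h ⟨w, hw, z, hz, Ne.symm hne, hle, n, hnw, hnz⟩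

open Classical in
/-- counting in an arithmetic progression. -/
theorem count_ap {Q : ℕ} (hQ : 0 < Q) (a X : ℕ) :
    |(((Finset.Icc 1 X).filter (fun n => n ≡ a [MOD Q])).card : ℝ) - X / Q| ≤ 1 := by
  have hper : ∀ u : ℕ, (if u + Q ≡ a [MOD Q] then (1 : ℝ) else 0) =
      if u ≡ a [MOD Q] then 1 else 0 := by
    intro u
    refine if_congr ?_ rfl rfl
    have h1 : u + Q ≡ u [MOD Q] := by simp [Nat.ModEq]
    exact ⟨fun h => h1.symm.trans h, fun h => h1.trans h⟩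
  have h := periodic_count (fun n => if n ≡ a [MOD Q] then (1 : ℝ) else 0) Q hQ hper
    (fun u => by positivity) X
  have hS : ∑ n ∈ Finset.range Q, (if n ≡ a [MOD Q] then (1 : ℝ) else 0) = 1 := by
    rw [Finset.sum_eq_single (a % Q)]
    · rw [if_pos (Nat.mod_modEq a Q)]
    · intro b hb hne
      rw [if_neg]
      intro h1
      apply hne
      have h2 : b % Q = a % Q := h1
      rwa [Nat.mod_eq_of_lt (Finset.mem_range.1 hb)] at h2
    · intro h1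
      exact absurd (Finset.mem_range.2 (Nat.mod_lt a hQ)) h1
  rw [hS, Finset.sum_boole, mul_one_div] at h
  exact h

section
variable {B : ℕ → ℕ → Prop} {K : ℕ}

open Classical in
/-- counting in an arithmetic progression with balls at the primes of `T`. -/
theorem count_balls {D : ℕ} (Mf : ℕ → Finset (ℕ × ℕ)) (X : ℕ) (T : Finset ℕ)
    (hT : ∀ p ∈ T, p.Prime) (hD : ∀ p ∈ T, (Mf p).card ≤ D)
    (hM : ∀ p ∈ T, ∀ n, B p n ↔ ∃ z ∈ Mf p, n ≡ z.2 [MOD p ^ z.1])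
    (hdis : ∀ p ∈ T, ∀ z ∈ Mf p, ∀ w ∈ Mf p, ∀ n, n ≡ z.2 [MOD p ^ z.1] →
      n ≡ w.2 [MOD p ^ w.1] → z = w) :
    ∀ Q a : ℕ, 0 < Q → (∀ p ∈ T, Nat.Coprime Q p) →
    |(((Finset.Icc 1 X).filter (fun n => n ≡ a [MOD Q] ∧ ∀ p ∈ T, B p n)).card : ℝ) -
      X / Q * ∏ p ∈ T, ∑ z ∈ Mf p, ((p : ℝ) ^ z.1)⁻¹| ≤ (D : ℝ) ^ T.card := by
  induction T using Finset.induction_on with
  | empty =>
    intro Q a hQ _
    have := count_ap hQ a X
    simpa using this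
  | insert p T hp ih =>
    intro Q a hQ hcop
    have hpp := hT p (Finset.mem_insert_self p T)
    have ih' := ih (fun q hq => hT q (Finset.mem_insert_of_mem hq))
      (fun q hq => hD q (Finset.mem_insert_of_mem hq))
      (fun q hq => hM q (Finset.mem_insert_of_mem hq))
      (fun q hq => hdis q (Finset.mem_insert_of_mem hq))
    have hcop1 : ∀ z : ℕ × ℕ, Nat.Coprime Q (p ^ z.1) := fun z =>
      Nat.Coprime.pow_right _ (hcop p (Finset.mem_insert_self p T))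
    set cr : ℕ × ℕ → ℕ := fun z => (Nat.chineseRemainder (hcop1 z) a z.2 : ℕ) with hcr
    have hcr1 : ∀ (z : ℕ × ℕ) (n : ℕ), n ≡ cr z [MOD Q * p ^ z.1] ↔
        n ≡ a [MOD Q] ∧ n ≡ z.2 [MOD p ^ z.1] := by
      intro z n
      have h1 := (Nat.chineseRemainder (hcop1 z) a z.2).2
      rw [← Nat.modEq_and_modEq_iff_modEq_mul (hcop1 z)]
      constructor
      · rintro ⟨h2, h3⟩
        exact ⟨h2.trans h1.1, h3.trans h1.2⟩
      · rintro ⟨h2, h3⟩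
        exact ⟨h2.trans h1.1.symm, h3.trans h1.2.symm⟩
    have hset : (Finset.Icc 1 X).filter (fun n => n ≡ a [MOD Q] ∧ ∀ q ∈ insert p T, B q n) =
        (Mf p).biUnion fun z => (Finset.Icc 1 X).filter
          (fun n => n ≡ cr z [MOD Q * p ^ z.1] ∧ ∀ q ∈ T, B q n) := by
      ext n
      simp only [Finset.mem_filter, Finset.mem_biUnion, Finset.forall_mem_insert]
      constructor
      · rintro ⟨h1, h2, h3, h4⟩
        obtain ⟨z, hz, hnz⟩ := (hM p (Finset.mem_insert_self p T) n).1 h3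
        exact ⟨z, hz, h1, (hcr1 z n).2 ⟨h2, hnz⟩, h4⟩
      · rintro ⟨z, hz, h1, h2, h4⟩
        obtain ⟨h5, h6⟩ := (hcr1 z n).1 h2
        exact ⟨h1, h5, (hM p (Finset.mem_insert_self p T) n).2 ⟨z, hz, h6⟩, h4⟩
    have hcard : ((Finset.Icc 1 X).filter
        (fun n => n ≡ a [MOD Q] ∧ ∀ q ∈ insert p T, B q n)).card =
        ∑ z ∈ Mf p, ((Finset.Icc 1 X).filter
          (fun n => n ≡ cr z [MOD Q * p ^ z.1] ∧ ∀ q ∈ T, B q n)).card := by
      rw [hset, Finset.card_biUnion]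
      intro z hz w hw hne
      rw [Function.onFun, Finset.disjoint_left]
      intro n hn hn'
      rw [Finset.mem_filter] at hn hn'
      exact hne (hdis p (Finset.mem_insert_self p T) z hz w hw n ((hcr1 z n).1 hn.2.1).2
        ((hcr1 w n).1 hn'.2.1).2)
    have hmain : ∀ z ∈ Mf p, |(((Finset.Icc 1 X).filter
        (fun n => n ≡ cr z [MOD Q * p ^ z.1] ∧ ∀ q ∈ T, B q n)).card : ℝ) -
        X / (Q * p ^ z.1 : ℕ) * ∏ q ∈ T, ∑ y ∈ Mf q, ((q : ℝ) ^ y.1)⁻¹| ≤ (D : ℝ) ^ T.card := by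
      intro z hz
      refine ih' (Q * p ^ z.1) (cr z) (Nat.mul_pos hQ (pow_pos hpp.pos _)) fun q hq => ?_
      refine Nat.Coprime.mul_left (hcop q (Finset.mem_insert_of_mem hq)) ?_
      refine Nat.Coprime.pow_left _ ?_
      rw [Nat.coprime_primes hpp (hT q (Finset.mem_insert_of_mem hq))]
      rintro rfl
      exact hp hq
    rw [hcard, Finset.prod_insert hp, Finset.card_insert_of_notMem hp, Nat.cast_sum]
    set Pt : ℝ := ∏ q ∈ T, ∑ y ∈ Mf q, ((q : ℝ) ^ y.1)⁻¹ with hPt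
    have e1 : (X : ℝ) / Q * ((∑ z ∈ Mf p, ((p : ℝ) ^ z.1)⁻¹) * Pt) =
        ∑ z ∈ Mf p, (X : ℝ) / (Q * p ^ z.1 : ℕ) * Pt := by
      rw [Finset.sum_mul, Finset.mul_sum]
      refine Finset.sum_congr rfl fun z _ => ?_
      push_cast
      rw [div_mul_eq_div_div, div_eq_mul_inv ((X : ℝ) / Q) ((p : ℝ) ^ z.1)]
      ring
    rw [e1, ← Finset.sum_sub_distrib]
    calc |∑ z ∈ Mf p, ((((Finset.Icc 1 X).filter
        (fun n => n ≡ cr z [MOD Q * p ^ z.1] ∧ ∀ q ∈ T, B q n)).card : ℝ) -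
          (X : ℝ) / (Q * p ^ z.1 : ℕ) * Pt)|
        ≤ ∑ z ∈ Mf p, (D : ℝ) ^ T.card :=
          (Finset.abs_sum_le_sum_abs _ _).trans (Finset.sum_le_sum hmain)
      _ = ((Mf p).card : ℝ) * (D : ℝ) ^ T.card := by rw [Finset.sum_const, nsmul_eq_mul]
      _ ≤ (D : ℝ) * (D : ℝ) ^ T.card := by
          have : ((Mf p).card : ℝ) ≤ D := by exact_mod_cast hD p (Finset.mem_insert_self p T)
          gcongr
      _ = (D : ℝ) ^ (T.card + 1) := by ring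

/-- the density of a disjoint union of balls. -/
theorem rB_balls {p : ℕ} (hp : p.Prime) (M : Finset (ℕ × ℕ)) (hK : ∀ z ∈ M, z.1 ≤ K)
    (hM : ∀ n, B p n ↔ ∃ z ∈ M, n ≡ z.2 [MOD p ^ z.1])
    (hdis : ∀ z ∈ M, ∀ w ∈ M, ∀ n, n ≡ z.2 [MOD p ^ z.1] → n ≡ w.2 [MOD p ^ w.1] → z = w) :
    (rB B K p : ℝ) / (p : ℝ) ^ K = ∑ z ∈ M, ((p : ℝ) ^ z.1)⁻¹ := by
  classical
  have hp0 : (0 : ℝ) < p := by exact_mod_cast hp.pos
  have hset : (Finset.range (p ^ K)).filter (fun n => B p n) =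
      M.biUnion fun z => (Finset.range (p ^ K)).filter (fun n => n ≡ z.2 [MOD p ^ z.1]) := by
    ext n
    simp only [Finset.mem_filter, Finset.mem_biUnion]
    constructor
    · rintro ⟨h1, h2⟩
      obtain ⟨z, hz, hnz⟩ := (hM n).1 h2
      exact ⟨z, hz, h1, hnz⟩
    · rintro ⟨z, hz, h1, h2⟩
      exact ⟨h1, (hM n).2 ⟨z, hz, h2⟩⟩
  have hcard : rB B K p = ∑ z ∈ M, p ^ (K - z.1) := by
    have h0 : rB B K p = ((Finset.range (p ^ K)).filter (fun n => B p n)).card := by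
      unfold rB
      congr
    rw [h0, hset, Finset.card_biUnion]
    · refine Finset.sum_congr rfl fun z hz => ?_
      rw [← Nat.count_eq_card_filter_range, Nat.count_modEq_card _ (pow_pos hp.pos _)]
      have h1 : p ^ K = p ^ (K - z.1) * p ^ z.1 := by
        rw [← pow_add, Nat.sub_add_cancel (hK z hz)]
      rw [h1, Nat.mul_mod_left, Nat.mul_div_cancel _ (pow_pos hp.pos _)]
      simp
    · intro z hz w hw hne
      rw [Function.onFun, Finset.disjoint_left]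
      intro n hn hn'
      rw [Finset.mem_filter] at hn hn'
      exact hne (hdis z hz w hw n hn.2 hn'.2)
  rw [hcard, Nat.cast_sum, Finset.sum_div]
  refine Finset.sum_congr rfl fun z hz => ?_
  have h1 : (p : ℝ) ^ K = (p : ℝ) ^ (K - z.1) * (p : ℝ) ^ z.1 := by
    rw [← pow_add, Nat.sub_add_cancel (hK z hz)]
  rw [h1]
  push_cast
  field_simp

/-- **the effective sieve with a power saving**, the excluded sets are unions of `p`-adic balls of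
radius at most `p ^ (-2)`. -/
theorem abs_sieve_balls (hK : 2 ≤ K) {D : ℕ} {C e d : ℝ} (hC : 0 ≤ C) (he : 0 < e) (he1 : e < 1)
    (hd : 0 < d)
    (hM : ∀ p : ℕ, p.Prime → ∃ M : Finset (ℕ × ℕ), M.card ≤ D ∧
      (∀ z ∈ M, 2 ≤ z.1 ∧ z.1 ≤ K) ∧ ∀ n, B p n ↔ ∃ z ∈ M, n ≡ z.2 [MOD p ^ z.1])
    (hlt : ∀ p : ℕ, p.Prime → rB B K p < p ^ K)
    (htail : ∀ X : ℕ, 1 ≤ X → (tB2 B e X : ℝ) ≤ C * (X : ℝ) ^ (1 - d)) :
    ∃ d' C' : ℝ, 0 < d' ∧ ∀ X : ℕ, 1 ≤ X →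
      |(cB B X : ℝ) - dB B K * X| ≤ C' * (X : ℝ) ^ (1 - d') := by
  classical
  have hM1 : ∀ p : ℕ, p.Prime → ∃ M : Finset (ℕ × ℕ), M.card ≤ D ∧
      (∀ z ∈ M, 2 ≤ z.1 ∧ z.1 ≤ K) ∧ (∀ n, B p n ↔ ∃ z ∈ M, n ≡ z.2 [MOD p ^ z.1]) ∧
      ∀ z ∈ M, ∀ w ∈ M, ∀ n, n ≡ z.2 [MOD p ^ z.1] → n ≡ w.2 [MOD p ^ w.1] → z = w := by
    intro p hp
    obtain ⟨M, h1, h2, h3⟩ := hM p hp
    obtain ⟨M1, h4, h5, h6⟩ := exists_disjoint_balls _ M rfl h3
    exact ⟨M1, (Finset.card_le_card h4).trans h1, fun z hz => h2 z (h4 hz), h5, h6⟩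
  have hMf : ∃ Mf : ℕ → Finset (ℕ × ℕ), ∀ p : ℕ, p.Prime → (Mf p).card ≤ D ∧
      (∀ z ∈ Mf p, 2 ≤ z.1 ∧ z.1 ≤ K) ∧ (∀ n, B p n ↔ ∃ z ∈ Mf p, n ≡ z.2 [MOD p ^ z.1]) ∧
      ∀ z ∈ Mf p, ∀ w ∈ Mf p, ∀ n, n ≡ z.2 [MOD p ^ z.1] → n ≡ w.2 [MOD p ^ w.1] → z = w := by
    refine ⟨fun p => if h : p.Prime then (hM1 p h).choose else ∅, fun p hp => ?_⟩
    simp only [dif_pos hp]
    exact (hM1 p hp).choose_spec
  obtain ⟨Mf, hMf⟩ := hMf
  have hrB : ∀ p : ℕ, p.Prime → (rB B K p : ℝ) / (p : ℝ) ^ K = ∑ z ∈ Mf p, ((p : ℝ) ^ z.1)⁻¹ :=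
    fun p hp => rB_balls hp (Mf p) (fun z hz => ((hMf p hp).2.1 z hz).2) (hMf p hp).2.2.1
      (hMf p hp).2.2.2
  refine abs_sieve_gen (K := K) hK ?_ (D := D) hC he he1 hd ?_ ?_ hlt htail
  · intro p hp n
    have hball : ∀ z ∈ Mf p, (n + p ^ K ≡ z.2 [MOD p ^ z.1] ↔ n ≡ z.2 [MOD p ^ z.1]) := by
      intro z hz
      have h1 : p ^ z.1 ∣ p ^ K := pow_dvd_pow p ((hMf p hp).2.1 z hz).2
      have h2 : n + p ^ K ≡ n [MOD p ^ z.1] := by
        have h3 : p ^ K ≡ 0 [MOD p ^ z.1] := (Nat.modEq_zero_iff_dvd).2 h1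
        simpa using (Nat.ModEq.refl n).add h3
      exact ⟨fun h => h2.symm.trans h, fun h => h2.trans h⟩
    rw [(hMf p hp).2.2.1, (hMf p hp).2.2.1]
    constructor
    · rintro ⟨z, hz, h⟩
      exact ⟨z, hz, (hball z hz).1 h⟩
    · rintro ⟨z, hz, h⟩
      exact ⟨z, hz, (hball z hz).2 h⟩
  · intro p hp
    rw [hrB p hp]
    have hp1 : (1 : ℝ) ≤ p := by exact_mod_cast hp.one_lt.le
    have h1 : ∀ z ∈ Mf p, ((p : ℝ) ^ z.1)⁻¹ ≤ ((p : ℝ) ^ 2)⁻¹ := by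
      intro z hz
      have h2 : (p : ℝ) ^ 2 ≤ (p : ℝ) ^ z.1 := pow_le_pow_right₀ hp1 ((hMf p hp).2.1 z hz).1
      have h3 : (0 : ℝ) < (p : ℝ) ^ 2 := by positivity
      exact inv_anti₀ h3 h2
    refine (Finset.sum_le_sum h1).trans ?_
    rw [Finset.sum_const, nsmul_eq_mul, ← div_eq_mul_inv]
    have h4 : ((Mf p).card : ℝ) ≤ D := by exact_mod_cast (hMf p hp).1
    gcongr
  · intro T hT X
    have h := count_balls (B := B) (D := D) Mf X T hT (fun p hp => (hMf p (hT p hp)).1)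
      (fun p hp => (hMf p (hT p hp)).2.2.1) (fun p hp => (hMf p (hT p hp)).2.2.2) 1 0 one_pos
      (fun p _ => Nat.coprime_one_left p)
    have h1 : ∏ p ∈ T, ∑ z ∈ Mf p, ((p : ℝ) ^ z.1)⁻¹ =
        ∏ p ∈ T, ((rB B K p : ℝ) / (p : ℝ) ^ K) :=
      Finset.prod_congr rfl fun p hp => (hrB p (hT p hp)).symm
    have h2 : ∀ n : ℕ, n ≡ 0 [MOD 1] := fun n => Nat.modEq_one
    simp only [h2, true_and, Nat.cast_one, div_one] at h
    rw [h1] at h
    convert h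

end

end Vale.Agent.P018.H867S
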