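import Vale.Agent.P018.H867S.Sieve

/-!
# P018, power saving, block S: a bounded number of excluded residues for each prime.
-/

namespace Vale.Agent.P018.H867S

open Filter Topology Vale.Agent.P018.H867

section
variable {B : ℕ → ℕ → Prop} {K : ℕ}

theorem rB_compl (p : ℕ) : (rB (fun p n => ¬ B p n) K p : ℝ) = (p : ℝ) ^ K - rB B K p := by
  classical
  have h := Finset.card_filter_add_card_filter_not (s := Finset.range (p ^ K)) (fun a => B p a)
  rw [Finset.card_range] at h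
  have h2 : (rB B K p : ℝ) + (rB (fun p n => ¬ B p n) K p : ℝ) = (p : ℝ) ^ K := by
    have h3 : rB B K p + rB (fun p n => ¬ B p n) K p = p ^ K := by
      unfold rB
      convert h
    exact_mod_cast h3
  linarith

theorem bI_eq (T : Finset ℕ) (n : ℕ) : bI B T n = ∏ p ∈ T, iB (fun p n => ¬ B p n) p n := by
  classical
  unfold bI
  split_ifs with h
  · refine (Finset.prod_eq_one fun p hp => ?_).symm
    unfold iB
    rw [if_neg (not_not.2 (h p hp))]
  · push Not at h
    obtain ⟨p, hp, hn⟩ := h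
    refine (Finset.prod_eq_zero hp ?_).symm
    unfold iB
    rw [if_pos hn]

theorem bI_le_one (T : Finset ℕ) (n : ℕ) : bI B T n ≤ 1 := by
  unfold bI; split_ifs <;> norm_num

/-- counting in a periodic set. -/
theorem periodic_count (G : ℕ → ℝ) (M : ℕ) (hM : 0 < M) (hper : ∀ u, G (u + M) = G u)
    (h0 : ∀ u, 0 ≤ G u) (X : ℕ) :
    |∑ n ∈ Finset.Icc 1 X, G n - X * ((∑ n ∈ Finset.range M, G n) / M)| ≤
      ∑ n ∈ Finset.range M, G n := by
  set S := ∑ n ∈ Finset.range M, G n with hS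
  have hM' : (0 : ℝ) < M := by exact_mod_cast hM
  have hH : ∀ u, G (u + M + 1) = G (u + 1) := fun u => by
    rw [add_right_comm, hper]
  have hS' : ∑ n ∈ Finset.range M, G (n + 1) = S := by
    have h1 := Finset.sum_range_succ' G M
    have h2 := Finset.sum_range_succ G M
    have h3 : G M = G 0 := by simpa using hper 0
    rw [h2, h3] at h1
    linarith
  have hI : ∑ n ∈ Finset.Icc 1 X, G n = ∑ n ∈ Finset.range X, G (n + 1) := by
    rw [Finset.range_eq_Ico, Finset.sum_Ico_add' G 0 X 1, zero_add]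
    refine Finset.sum_congr ?_ fun _ _ => rfl
    ext x
    simp only [Finset.mem_Icc, Finset.mem_Ico]
    omega
  have hX : X = M * (X / M) + X % M := (Nat.div_add_mod X M).symm
  have hr : X % M < M := Nat.mod_lt _ hM
  have hsum := sum_mul_range (fun n => G (n + 1)) M hH (X / M) (X % M)
  rw [← hX, hS'] at hsum
  rw [hI, hsum]
  have hS0 : 0 ≤ S := Finset.sum_nonneg fun n _ => h0 n
  have hr0 : 0 ≤ ∑ n ∈ Finset.range (X % M), G (n + 1) := Finset.sum_nonneg fun n _ => h0 _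
  have hr1 : ∑ n ∈ Finset.range (X % M), G (n + 1) ≤ S := by
    rw [← hS']
    refine Finset.sum_le_sum_of_subset_of_nonneg ?_ fun n _ _ => h0 _
    exact Finset.range_subset_range.2 hr.le
  have hXr : (X : ℝ) = M * (X / M : ℕ) + (X % M : ℕ) := by exact_mod_cast hX
  have hrM : ((X % M : ℕ) : ℝ) / M ≤ 1 := by
    rw [div_le_one hM']
    exact_mod_cast hr.le
  have hrM0 : 0 ≤ ((X % M : ℕ) : ℝ) / M := by positivity
  have e1 : (X : ℝ) * (S / M) = (X / M : ℕ) * S + ((X % M : ℕ) : ℝ) / M * S := by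
    conv_lhs => rw [hXr]
    field_simp
  rw [e1, abs_le]
  constructor
  · nlinarith
  · nlinarith [mul_nonneg hrM0 hS0]

theorem nT_bound (hper : ∀ p : ℕ, p.Prime → ∀ n, B p (n + p ^ K) ↔ B p n) {D : ℕ}
    (hD : ∀ p : ℕ, p.Prime → rB B K p ≤ D) (T : Finset ℕ) (hT : ∀ p ∈ T, p.Prime) (X : ℕ) :
    |(nT B T X : ℝ) - X * gT B K T| ≤ (D : ℝ) ^ T.card := by
  classical
  have hperC : ∀ p : ℕ, p.Prime → ∀ n, (¬ B p (n + p ^ K)) ↔ ¬ B p n := fun p hp n =>
    not_congr (hper p hp n)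
  set M := ∏ p ∈ T, p ^ K with hM
  have hMpos : 0 < M := Finset.prod_pos fun q hq => pow_pos (hT q hq).pos K
  have hG : ∀ u, bI B T (u + M) = bI B T u := by
    intro u
    rw [bI_eq, bI_eq]
    refine Finset.prod_congr rfl fun q hq => ?_
    have h1 := iB_mod (B := fun p n => ¬ B p n) (hperC q (hT q hq))
      (Finset.dvd_prod_of_mem (fun q => q ^ K) hq) (u + M)
    have h2 := iB_mod (B := fun p n => ¬ B p n) (hperC q (hT q hq))
      (Finset.dvd_prod_of_mem (fun q => q ^ K) hq) u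
    rw [← h1, ← h2]
    congr 1
    exact Nat.add_mod_right u M
  have hS : ∑ n ∈ Finset.range M, bI B T n = ∏ p ∈ T, (rB B K p : ℝ) := by
    rw [Finset.sum_congr rfl fun n _ => bI_eq (B := B) T n, prodB_sum hperC T hT]
    refine Finset.prod_congr rfl fun p _ => ?_
    rw [rB_compl]
    ring
  have h1 := periodic_count (bI B T) M hMpos hG (bI_nonneg T) X
  rw [sum_bI, hS] at h1
  have h2 : (∏ p ∈ T, (rB B K p : ℝ)) / (M : ℝ) = gT B K T := by
    rw [gT, Finset.prod_div_distrib, hM]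
    push_cast
    rfl
  rw [h2] at h1
  refine h1.trans ?_
  rw [← Finset.prod_const]
  exact Finset.prod_le_prod (fun _ _ => Nat.cast_nonneg _) fun p hp => by
    exact_mod_cast hD p (hT p hp)

/-- **the effective sieve with a power saving**, a bounded number of excluded residues. -/
theorem abs_sieve_pow (hK : 2 ≤ K) (hper : ∀ p : ℕ, p.Prime → ∀ n, B p (n + p ^ K) ↔ B p n)
    {D : ℕ} {C e d : ℝ} (hC : 0 ≤ C) (he : 0 < e) (he1 : e < 1) (hd : 0 < d)
    (hD : ∀ p : ℕ, p.Prime → rB B K p ≤ D)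
    (hlt : ∀ p : ℕ, p.Prime → rB B K p < p ^ K)
    (htail : ∀ X : ℕ, 1 ≤ X → (tB2 B e X : ℝ) ≤ C * (X : ℝ) ^ (1 - d)) :
    ∃ d' C' : ℝ, 0 < d' ∧ ∀ X : ℕ, 1 ≤ X →
      |(cB B X : ℝ) - dB B K * X| ≤ C' * (X : ℝ) ^ (1 - d') := by
  refine abs_sieve_gen hK hper (D := D) hC he he1 hd ?_ ?_ hlt htail
  · intro p hp
    have hp1 : (1 : ℝ) ≤ p := by exact_mod_cast hp.one_lt.le
    have hpK : (p : ℝ) ^ 2 ≤ (p : ℝ) ^ K := pow_le_pow_right₀ hp1 hK
    have hD' : (rB B K p : ℝ) ≤ D := by exact_mod_cast hD p hp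
    have hp2 : (0 : ℝ) < (p : ℝ) ^ 2 := by positivity
    calc (rB B K p : ℝ) / (p : ℝ) ^ K ≤ D / (p : ℝ) ^ K := by gcongr
      _ ≤ D / (p : ℝ) ^ 2 := by gcongr
  · intro T hT X
    have := nT_bound hper hD T hT X
    unfold nT gT at this
    convert this

end

end Vale.Agent.P018.H867S
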