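import Vale.Agent.P018.H867.Abs

/-!
# P018, power saving, block S: the abstract sieve with a power saving error term.
-/

namespace Vale.Agent.P018.H867S

open Filter Topology Vale.Agent.P018.H867

open Classical in
/-- the number of `1 ≤ n ≤ X` excluded by a prime `p > X ^ (1 - e)`. -/
noncomputable def tB2 (B : ℕ → ℕ → Prop) (e : ℝ) (X : ℕ) : ℕ :=
  ((Finset.Icc 1 X).filter (fun n => ∃ p : ℕ, p.Prime ∧ (X : ℝ) ^ (1 - e) < p ∧ B p n)).card

/-! ### sets of primes -/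

theorem prod_injOn {P : Finset ℕ} (hP : ∀ p ∈ P, p.Prime) {S T : Finset ℕ} (hS : S ⊆ P)
    (hT : T ⊆ P) (h : ∏ p ∈ S, p = ∏ p ∈ T, p) : S = T := by
  rw [← Nat.primeFactors_prod fun p hp => hP p (hS hp), h,
    Nat.primeFactors_prod fun p hp => hP p (hT hp)]

theorem sum_le_sum_image {P : Finset ℕ} (hP : ∀ p ∈ P, p.Prime) (W : Finset (Finset ℕ))
    (hW : ∀ T ∈ W, T ⊆ P) (R : Finset ℕ) (hR : ∀ T ∈ W, ∏ p ∈ T, p ∈ R) (f : ℕ → ℝ)
    (hf : ∀ m, 0 ≤ f m) : ∑ T ∈ W, f (∏ p ∈ T, p) ≤ ∑ m ∈ R, f m := by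
  classical
  have hinj : Set.InjOn (fun T : Finset ℕ => ∏ p ∈ T, p) W := by
    intro S hS T hT h
    exact prod_injOn hP (hW S hS) (hW T hT) h
  rw [← Finset.sum_image (f := f) hinj]
  refine Finset.sum_le_sum_of_subset_of_nonneg ?_ fun m _ _ => hf m
  intro m hm
  obtain ⟨T, hT, rfl⟩ := Finset.mem_image.1 hm
  exact hR T hT

/-- `D ^ ω(m) ≪ √m`. -/
theorem pow_card_le {D : ℕ} (hD : 1 ≤ D) (T : Finset ℕ) (hT : ∀ p ∈ T, p.Prime) :
    (D : ℝ) ^ T.card ≤ (D : ℝ) ^ (D ^ 2) * Real.sqrt ((∏ p ∈ T, p : ℕ) : ℝ) := by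
  classical
  have hD1 : (1 : ℝ) ≤ D := by exact_mod_cast hD
  have h1 : Real.sqrt ((∏ p ∈ T, p : ℕ) : ℝ) = ∏ p ∈ T, Real.sqrt p := by
    induction T using Finset.induction_on with
    | empty => simp
    | insert a s ha ih =>
      rw [Finset.prod_insert ha, Finset.prod_insert ha, Nat.cast_mul,
        Real.sqrt_mul (Nat.cast_nonneg _), ih fun p hp => hT p (Finset.mem_insert_of_mem hp)]
  have h2 : (D : ℝ) ^ T.card = ∏ p ∈ T, (D : ℝ) := by rw [Finset.prod_const]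
  have h3 : ∏ p ∈ T, (D : ℝ) ≤ ∏ p ∈ T, ((if p < D ^ 2 then (D : ℝ) else 1) * Real.sqrt p) := by
    refine Finset.prod_le_prod (fun _ _ => by positivity) fun p hp => ?_
    have hp1 : (1 : ℝ) ≤ Real.sqrt p := by
      rw [Real.one_le_sqrt]
      exact_mod_cast (hT p hp).one_lt.le
    split_ifs with h
    · exact le_mul_of_one_le_right (by positivity) hp1
    · rw [one_mul]
      push Not at h
      refine Real.le_sqrt_of_sq_le ?_
      exact_mod_cast h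
  have h4 : ∏ p ∈ T, (if p < D ^ 2 then (D : ℝ) else 1) ≤ (D : ℝ) ^ (D ^ 2) := by
    rw [← Finset.prod_filter, Finset.prod_const]
    refine pow_le_pow_right₀ hD1 ?_
    have : T.filter (fun p => p < D ^ 2) ⊆ Finset.range (D ^ 2) := by
      intro p hp
      rw [Finset.mem_filter] at hp
      exact Finset.mem_range.2 hp.2
    simpa using Finset.card_le_card this
  rw [h2, h1]
  refine h3.trans ?_
  rw [Finset.prod_mul_distrib]
  exact mul_le_mul_of_nonneg_right h4 (Finset.prod_nonneg fun _ _ => Real.sqrt_nonneg _)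

theorem sum_sqrt_div_sq (Y : ℕ) (hY : 1 ≤ Y) (M : ℕ) :
    ∑ m ∈ Finset.Ioc Y M, Real.sqrt m / (m : ℝ) ^ 2 ≤ 2 / Real.sqrt Y := by
  have key : ∀ M, Y ≤ M → ∑ m ∈ Finset.Ioc Y M, Real.sqrt m / (m : ℝ) ^ 2 ≤
      2 / Real.sqrt Y - 2 / Real.sqrt M := by
    intro M hM
    induction M, hM using Nat.le_induction with
    | base => simp
    | succ M hM ih =>
      have hM1 : (1 : ℝ) ≤ M := by exact_mod_cast hY.trans hM
      rw [← Finset.insert_Ioc_right_eq_Ioc_add_one hM, Finset.sum_insert (by simp)]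
      have ha : 0 < Real.sqrt M := Real.sqrt_pos.2 (by linarith)
      have hb : 0 < Real.sqrt ((M : ℝ) + 1) := Real.sqrt_pos.2 (by linarith)
      have hab : Real.sqrt M ≤ Real.sqrt ((M : ℝ) + 1) := Real.sqrt_le_sqrt (by linarith)
      have ha2 : Real.sqrt M ^ 2 = M := Real.sq_sqrt (by linarith)
      have hb2 : Real.sqrt ((M : ℝ) + 1) ^ 2 = M + 1 := Real.sq_sqrt (by linarith)
      have h1 : Real.sqrt ((M + 1 : ℕ) : ℝ) / (((M + 1 : ℕ) : ℝ)) ^ 2 ≤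
          2 / Real.sqrt M - 2 / Real.sqrt ((M + 1 : ℕ) : ℝ) := by
        push_cast
        set a := Real.sqrt M
        set b := Real.sqrt ((M : ℝ) + 1)
        have h3 : (M : ℝ) + 1 = b ^ 2 := hb2.symm
        have h4 : b ^ 2 - a ^ 2 = 1 := by rw [hb2, ha2]; ring
        rw [h3, div_sub_div _ _ ha.ne' hb.ne', div_le_div_iff₀ (by positivity) (by positivity)]
        have h5 : (b - a) * (b + a) = 1 := by linear_combination h4
        have h6 : a * b * b ≤ 2 * (b - a) * (b ^ 2) ^ 2 * 1 := by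
          have h7 : 1 ≤ (b - a) * (2 * b) := by
            rw [← h5]
            apply mul_le_mul_of_nonneg_left _ (by linarith)
            linarith
          calc a * b * b ≤ b * b * b := by gcongr
            _ = b ^ 3 * 1 := by ring
            _ ≤ b ^ 3 * ((b - a) * (2 * b)) := by gcongr
            _ = _ := by ring
        linarith
      linarith
  rcases le_total Y M with h | h
  · refine (key M h).trans ?_
    have : 0 ≤ 2 / Real.sqrt M := by positivity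
    linarith
  · rw [Finset.Ioc_eq_empty (by omega), Finset.sum_empty]
    positivity

theorem sum_sqrt_le (Z : ℕ) : ∑ m ∈ Finset.Icc 1 Z, Real.sqrt m ≤ Z * Real.sqrt Z := by
  calc ∑ m ∈ Finset.Icc 1 Z, Real.sqrt m ≤ ∑ m ∈ Finset.Icc 1 Z, Real.sqrt Z := by
        refine Finset.sum_le_sum fun m hm => Real.sqrt_le_sqrt ?_
        exact_mod_cast (Finset.mem_Icc.1 hm).2
    _ = Z * Real.sqrt Z := by simp

theorem prod_pos_of_primes {P T : Finset ℕ} (hP : ∀ p ∈ P, p.Prime) (hT : T ⊆ P) :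
    1 ≤ ∏ p ∈ T, p := Nat.one_le_iff_ne_zero.2
  (Finset.prod_ne_zero_iff.2 fun p hp => (hP p (hT hp)).ne_zero)

/-- the large sets. -/
theorem sum_large {P : Finset ℕ} (hP : ∀ p ∈ P, p.Prime) {D : ℕ} (hD : 1 ≤ D) {Y : ℕ}
    (hY : 1 ≤ Y) (W : Finset (Finset ℕ)) (hW : ∀ T ∈ W, T ⊆ P ∧ Y < ∏ p ∈ T, p) :
    ∑ T ∈ W, (D : ℝ) ^ T.card / ((∏ p ∈ T, p : ℕ) : ℝ) ^ 2 ≤
      (D : ℝ) ^ (D ^ 2) * (2 / Real.sqrt Y) := by
  have h1 : ∀ T ∈ W, (D : ℝ) ^ T.card / ((∏ p ∈ T, p : ℕ) : ℝ) ^ 2 ≤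
      (D : ℝ) ^ (D ^ 2) * (Real.sqrt ((∏ p ∈ T, p : ℕ) : ℝ) / ((∏ p ∈ T, p : ℕ) : ℝ) ^ 2) := by
    intro T hT
    rw [mul_div_assoc']
    exact div_le_div_of_nonneg_right (pow_card_le hD T fun p hp => hP p ((hW T hT).1 hp))
      (by positivity)
  refine (Finset.sum_le_sum h1).trans ?_
  rw [← Finset.mul_sum]
  refine mul_le_mul_of_nonneg_left ?_ (by positivity)
  refine (sum_le_sum_image hP W (fun T hT => (hW T hT).1) (Finset.Ioc Y (∏ p ∈ P, p)) ?_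
    (fun m => Real.sqrt m / (m : ℝ) ^ 2) fun m => by positivity).trans (sum_sqrt_div_sq Y hY _)
  intro T hT
  rw [Finset.mem_Ioc]
  refine ⟨(hW T hT).2, ?_⟩
  exact Nat.le_of_dvd (prod_pos_of_primes hP subset_rfl)
    (Finset.prod_dvd_prod_of_subset _ _ _ (hW T hT).1)

/-- the small sets. -/
theorem sum_small {P : Finset ℕ} (hP : ∀ p ∈ P, p.Prime) {D : ℕ} (hD : 1 ≤ D) (Z : ℕ)
    (W : Finset (Finset ℕ)) (hW : ∀ T ∈ W, T ⊆ P ∧ ∏ p ∈ T, p ≤ Z) :
    ∑ T ∈ W, (D : ℝ) ^ T.card ≤ (D : ℝ) ^ (D ^ 2) * (Z * Real.sqrt Z) := by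
  refine (Finset.sum_le_sum fun T hT => pow_card_le hD T fun p hp => hP p ((hW T hT).1 hp)).trans ?_
  rw [← Finset.mul_sum]
  refine mul_le_mul_of_nonneg_left ?_ (by positivity)
  refine (sum_le_sum_image hP W (fun T hT => (hW T hT).1) (Finset.Icc 1 Z) ?_
    (fun m => Real.sqrt m) fun m => Real.sqrt_nonneg _).trans (sum_sqrt_le Z)
  intro T hT
  rw [Finset.mem_Icc]
  exact ⟨prod_pos_of_primes hP (hW T hT).1, (hW T hT).2⟩

/-- greedy extension. -/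
theorem exists_greedy {z Y : ℕ} (A : Finset ℕ) (hA : ∀ p ∈ A, p.Prime ∧ p ≤ z) :
    ∀ T : Finset ℕ, T ⊆ A → ∏ p ∈ T, p ≤ Y → Y < ∏ p ∈ A, p →
    ∃ T' : Finset ℕ, T ⊆ T' ∧ T' ⊆ A ∧ Y < ∏ p ∈ T', p ∧ ∏ p ∈ T', p ≤ Y * z := by
  classical
  intro T
  induction hk : (A \ T).card using Nat.strong_induction_on generalizing T with
  | _ k ih =>
    intro hTA hT hYA
    have hne : (A \ T).Nonempty := by
      rw [Finset.sdiff_nonempty]
      intro h
      rw [Finset.Subset.antisymm h hTA] at hYA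
      omega
    obtain ⟨a, ha⟩ := hne
    rw [Finset.mem_sdiff] at ha
    have hins : insert a T ⊆ A := Finset.insert_subset ha.1 hTA
    have hprod : ∏ p ∈ insert a T, p = a * ∏ p ∈ T, p := Finset.prod_insert ha.2
    rcases lt_or_ge Y (∏ p ∈ insert a T, p) with h | h
    · refine ⟨insert a T, Finset.subset_insert a T, hins, h, ?_⟩
      rw [hprod, mul_comm]
      exact Nat.mul_le_mul hT (hA a ha.1).2
    · have hlt : (A \ insert a T).card < k := by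
        rw [← hk]
        refine Finset.card_lt_card ?_
        rw [Finset.ssubset_iff_of_subset (Finset.sdiff_subset_sdiff subset_rfl
          (Finset.subset_insert a T))]
        exact ⟨a, Finset.mem_sdiff.2 ha, fun h => (Finset.mem_sdiff.1 h).2
          (Finset.mem_insert_self a T)⟩
      obtain ⟨T', h1, h2, h3, h4⟩ := ih _ hlt (insert a T) rfl hins h hYA
      exact ⟨T', (Finset.subset_insert a T).trans h1, h2, h3, h4⟩

/-! ### inclusion and exclusion -/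

open Classical in
/-- the indicator of `n` being excluded by all elements of `T`. -/
noncomputable def bI (B : ℕ → ℕ → Prop) (T : Finset ℕ) (n : ℕ) : ℝ :=
  if ∀ p ∈ T, B p n then 1 else 0

open Classical in
/-- the number of `1 ≤ n ≤ X` excluded by all elements of `T`. -/
noncomputable def nT (B : ℕ → ℕ → Prop) (T : Finset ℕ) (X : ℕ) : ℕ :=
  ((Finset.Icc 1 X).filter (fun n => ∀ p ∈ T, B p n)).card

/-- the density of the `n` excluded by all elements of `T`. -/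
noncomputable def gT (B : ℕ → ℕ → Prop) (K : ℕ) (T : Finset ℕ) : ℝ :=
  ∏ p ∈ T, ((rB B K p : ℝ) / (p : ℝ) ^ K)

section
variable {B : ℕ → ℕ → Prop} {K : ℕ}

theorem bI_nonneg (T : Finset ℕ) (n : ℕ) : 0 ≤ bI B T n := by
  unfold bI; split_ifs <;> norm_num

theorem sum_bI (T : Finset ℕ) (X : ℕ) : ∑ n ∈ Finset.Icc 1 X, bI B T n = nT B T X := by
  classical
  unfold bI nT
  rw [Finset.sum_boole]

theorem prod_iB (P : Finset ℕ) (n : ℕ) :
    ∏ p ∈ P, iB B p n = ∑ T ∈ P.powerset, (-1) ^ T.card * bI B T n := by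
  classical
  have h1 : ∀ p ∈ P, iB B p n = (-1) * (if B p n then (1 : ℝ) else 0) + 1 := by
    intro p _
    unfold iB
    split_ifs <;> norm_num
  rw [Finset.prod_congr rfl h1, Finset.prod_add_one]
  refine Finset.sum_congr rfl fun T _ => ?_
  rw [Finset.prod_mul_distrib, Finset.prod_const, Finset.prod_boole]
  rfl

theorem pointwise {z Y : ℕ} {P : Finset ℕ} (hP : ∀ p ∈ P, p.Prime ∧ p ≤ z) (hY : 1 ≤ Y) (n : ℕ) :
    |∏ p ∈ P, iB B p n - ∑ T ∈ P.powerset.filter (fun T => ∏ p ∈ T, p ≤ Y),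
      (-1) ^ T.card * bI B T n| ≤
    ∑ T ∈ P.powerset.filter (fun T => Y < ∏ p ∈ T, p ∧ ∏ p ∈ T, p ≤ Y * z),
      2 ^ T.card * bI B T n := by
  classical
  set A := P.filter (fun p => B p n) with hA
  have hbI : ∀ T ∈ P.powerset, bI B T n = if T ⊆ A then 1 else 0 := by
    intro T hT
    rw [Finset.mem_powerset] at hT
    unfold bI
    refine if_congr ?_ rfl rfl
    constructor
    · intro h p hp
      exact Finset.mem_filter.2 ⟨hT hp, h p hp⟩
    · intro h p hp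
      exact (Finset.mem_filter.1 (h hp)).2
  have hAP : A ⊆ P := Finset.filter_subset _ _
  have hApos : 1 ≤ ∏ p ∈ A, p := prod_pos_of_primes (fun p hp => (hP p hp).1) hAP
  rcases le_or_gt (∏ p ∈ A, p) Y with h | h
  · have h1 : ∏ p ∈ P, iB B p n = ∑ T ∈ P.powerset.filter (fun T => ∏ p ∈ T, p ≤ Y),
        (-1) ^ T.card * bI B T n := by
      rw [prod_iB, Finset.sum_filter]
      refine Finset.sum_congr rfl fun T hT => ?_
      split_ifs with h2
      · rfl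
      · rw [hbI T hT, if_neg, mul_zero]
        intro h3
        exact h2 ((Nat.le_of_dvd hApos (Finset.prod_dvd_prod_of_subset _ _ _ h3)).trans h)
    rw [h1, sub_self, abs_zero]
    exact Finset.sum_nonneg fun T _ => mul_nonneg (by positivity) (bI_nonneg _ _)
  · have h0 : ∏ p ∈ P, iB B p n = 0 := by
      have hne : A.Nonempty := by
        rw [Finset.nonempty_iff_ne_empty]
        intro h2
        rw [h2, Finset.prod_empty] at h
        omega
      obtain ⟨a, ha⟩ := hne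
      rw [hA, Finset.mem_filter] at ha
      refine Finset.prod_eq_zero ha.1 ?_
      unfold iB
      rw [if_pos ha.2]
    rw [h0, zero_sub, abs_neg]
    refine (Finset.abs_sum_le_sum_abs _ _).trans ?_
    have h2 : ∀ T ∈ P.powerset.filter (fun T => ∏ p ∈ T, p ≤ Y),
        |(-1) ^ T.card * bI B T n| = if T ⊆ A then (1 : ℝ) else 0 := by
      intro T hT
      rw [abs_mul, abs_pow, abs_neg, abs_one, one_pow, one_mul, abs_of_nonneg (bI_nonneg _ _),
        hbI T (Finset.mem_filter.1 hT).1]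
    rw [Finset.sum_congr rfl h2, Finset.sum_boole]
    have h3 : ∑ T ∈ P.powerset.filter (fun T => Y < ∏ p ∈ T, p ∧ ∏ p ∈ T, p ≤ Y * z),
        2 ^ T.card * bI B T n =
        ∑ T ∈ (P.powerset.filter (fun T => Y < ∏ p ∈ T, p ∧ ∏ p ∈ T, p ≤ Y * z)).filter
          (fun T => T ⊆ A), (2 : ℝ) ^ T.card := by
      rw [Finset.sum_filter (p := fun T => T ⊆ A)]
      refine Finset.sum_congr rfl fun T hT => ?_
      rw [hbI T (Finset.mem_filter.1 hT).1]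
      split_ifs <;> simp
    rw [h3]
    set W2 := (P.powerset.filter (fun T => Y < ∏ p ∈ T, p ∧ ∏ p ∈ T, p ≤ Y * z)).filter
          (fun T => T ⊆ A) with hW2
    have h4 : (P.powerset.filter (fun T => ∏ p ∈ T, p ≤ Y)).filter (fun T => T ⊆ A) ⊆
        W2.biUnion fun T => T.powerset := by
      intro T hT
      rw [Finset.mem_filter, Finset.mem_filter] at hT
      obtain ⟨T', e1, e2, e3, e4⟩ := exists_greedy (z := z) (Y := Y) A
        (fun p hp => hP p (hAP hp)) T hT.2 hT.1.2 h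
      rw [Finset.mem_biUnion]
      refine ⟨T', ?_, Finset.mem_powerset.2 e1⟩
      rw [hW2, Finset.mem_filter, Finset.mem_filter, Finset.mem_powerset]
      exact ⟨⟨e2.trans hAP, e3, e4⟩, e2⟩
    have h5 := (Finset.card_le_card h4).trans Finset.card_biUnion_le
    simp only [Finset.card_powerset] at h5
    exact_mod_cast h5

theorem gT_nonneg (T : Finset ℕ) : 0 ≤ gT B K T := Finset.prod_nonneg fun _ _ => by positivity

theorem gT_le {D : ℕ} (hr : ∀ p : ℕ, p.Prime → (rB B K p : ℝ) / (p : ℝ) ^ K ≤ D / (p : ℝ) ^ 2)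
    (T : Finset ℕ) (hT : ∀ p ∈ T, p.Prime) :
    gT B K T ≤ (D : ℝ) ^ T.card / ((∏ p ∈ T, p : ℕ) : ℝ) ^ 2 := by
  have h1 : gT B K T ≤ ∏ p ∈ T, ((D : ℝ) / (p : ℝ) ^ 2) :=
    Finset.prod_le_prod (fun _ _ => by positivity) fun p hp => hr p (hT p hp)
  refine h1.trans (le_of_eq ?_)
  rw [Finset.prod_div_distrib, Finset.prod_const, Nat.cast_prod, Finset.prod_pow]

theorem prod_one_sub (P : Finset ℕ) :
    ∏ p ∈ P, (1 - (rB B K p : ℝ) / (p : ℝ) ^ K) =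
      ∑ T ∈ P.powerset, (-1) ^ T.card * gT B K T := by
  classical
  have h1 : ∀ p ∈ P, (1 - (rB B K p : ℝ) / (p : ℝ) ^ K) =
      (-1) * ((rB B K p : ℝ) / (p : ℝ) ^ K) + 1 := fun p _ => by ring
  rw [Finset.prod_congr rfl h1, Finset.prod_add_one]
  refine Finset.sum_congr rfl fun T _ => ?_
  rw [Finset.prod_mul_distrib, Finset.prod_const]
  rfl

/-- the number of integers that survive the primes of `P`. -/
theorem sieve_main {D : ℕ} (hD : 1 ≤ D)
    (hr : ∀ p : ℕ, p.Prime → (rB B K p : ℝ) / (p : ℝ) ^ K ≤ D / (p : ℝ) ^ 2) {X : ℕ}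
    (hT : ∀ T : Finset ℕ, (∀ p ∈ T, p.Prime) → |(nT B T X : ℝ) - X * gT B K T| ≤ (D : ℝ) ^ T.card)
    {z Y : ℕ} {P : Finset ℕ} (hP : ∀ p ∈ P, p.Prime ∧ p ≤ z) (hY : 1 ≤ Y) (hz : 1 ≤ z) :
    |∑ n ∈ Finset.Icc 1 X, ∏ p ∈ P, iB B p n -
      X * ∏ p ∈ P, (1 - (rB B K p : ℝ) / (p : ℝ) ^ K)| ≤
      2 * (((2 * D : ℕ) : ℝ) ^ ((2 * D) ^ 2) * (X * (2 / Real.sqrt Y) +
        ((Y * z : ℕ) : ℝ) * Real.sqrt ((Y * z : ℕ) : ℝ))) := by
  classical
  have hPp : ∀ p ∈ P, p.Prime := fun p hp => (hP p hp).1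
  have hDD : 1 ≤ 2 * D := by omega
  set C2 : ℝ := ((2 * D : ℕ) : ℝ) ^ ((2 * D) ^ 2) with hC2
  have hC20 : 0 ≤ C2 := by positivity
  set W1 := P.powerset.filter (fun T => ∏ p ∈ T, p ≤ Y) with hW1
  set W2 := P.powerset.filter (fun T => Y < ∏ p ∈ T, p ∧ ∏ p ∈ T, p ≤ Y * z) with hW2
  set W3 := P.powerset.filter (fun T => ¬ ∏ p ∈ T, p ≤ Y) with hW3
  have hsub1 : ∀ T ∈ W1, T ⊆ P ∧ ∏ p ∈ T, p ≤ Y := fun T hT => by
    rw [hW1, Finset.mem_filter, Finset.mem_powerset] at hT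
    exact hT
  have hsub2 : ∀ T ∈ W2, T ⊆ P ∧ Y < ∏ p ∈ T, p ∧ ∏ p ∈ T, p ≤ Y * z := fun T hT => by
    rw [hW2, Finset.mem_filter, Finset.mem_powerset] at hT
    exact hT
  have hsub3 : ∀ T ∈ W3, T ⊆ P ∧ Y < ∏ p ∈ T, p := fun T hT => by
    rw [hW3, Finset.mem_filter, Finset.mem_powerset, not_le] at hT
    exact hT
  have hpowle : ∀ T : Finset ℕ, (D : ℝ) ^ T.card ≤ ((2 * D : ℕ) : ℝ) ^ T.card := fun T => by
    refine pow_le_pow_left₀ (Nat.cast_nonneg _) ?_ _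
    push_cast
    have : (0 : ℝ) ≤ D := Nat.cast_nonneg _
    linarith
  have hX0 : (0 : ℝ) ≤ X := Nat.cast_nonneg _
  set V : ℝ := ∑ T ∈ W1, (-1) ^ T.card * (nT B T X : ℝ) with hV
  set G : ℝ := ∑ T ∈ W1, (-1) ^ T.card * gT B K T with hG
  -- (a)
  have ha : |∑ n ∈ Finset.Icc 1 X, ∏ p ∈ P, iB B p n - V| ≤
      C2 * (X * (2 / Real.sqrt Y) + ((Y * z : ℕ) : ℝ) * Real.sqrt ((Y * z : ℕ) : ℝ)) := by
    have h1 : V = ∑ n ∈ Finset.Icc 1 X, ∑ T ∈ W1, (-1) ^ T.card * bI B T n := by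
      rw [Finset.sum_comm, hV]
      refine Finset.sum_congr rfl fun T _ => ?_
      rw [← Finset.mul_sum, sum_bI]
    rw [h1, ← Finset.sum_sub_distrib]
    refine (Finset.abs_sum_le_sum_abs _ _).trans ?_
    refine (Finset.sum_le_sum fun n _ => pointwise hP hY n).trans ?_
    rw [Finset.sum_comm]
    have h2 : ∀ T ∈ W2, ∑ n ∈ Finset.Icc 1 X, 2 ^ T.card * bI B T n ≤
        X * (((2 * D : ℕ) : ℝ) ^ T.card / ((∏ p ∈ T, p : ℕ) : ℝ) ^ 2) +
          ((2 * D : ℕ) : ℝ) ^ T.card := by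
      intro T hTW
      have hTP := (hsub2 T hTW).1
      rw [← Finset.mul_sum, sum_bI]
      have h3 := (abs_le.1 (hT T fun p hp => hPp p (hTP hp))).2
      have h4 := gT_le hr T fun p hp => hPp p (hTP hp)
      have h5 : (nT B T X : ℝ) ≤ X * ((D : ℝ) ^ T.card / ((∏ p ∈ T, p : ℕ) : ℝ) ^ 2) +
          (D : ℝ) ^ T.card := by
        have := mul_le_mul_of_nonneg_left h4 hX0
        linarith
      calc (2 : ℝ) ^ T.card * (nT B T X : ℝ) ≤ 2 ^ T.card *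
          (X * ((D : ℝ) ^ T.card / ((∏ p ∈ T, p : ℕ) : ℝ) ^ 2) + (D : ℝ) ^ T.card) := by gcongr
        _ = _ := by
            push_cast
            rw [mul_pow]
            ring
    refine (Finset.sum_le_sum h2).trans ?_
    rw [Finset.sum_add_distrib, ← Finset.mul_sum, mul_add]
    refine add_le_add ?_ ?_
    · have := sum_large hPp hDD hY W2 fun T hT => ⟨(hsub2 T hT).1, (hsub2 T hT).2.1⟩
      calc _ ≤ (X : ℝ) * (C2 * (2 / Real.sqrt Y)) := mul_le_mul_of_nonneg_left this hX0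
        _ = _ := by ring
    · exact sum_small hPp hDD (Y * z) W2 fun T hT => ⟨(hsub2 T hT).1, (hsub2 T hT).2.2⟩
  -- (b)
  have hb : |V - X * G| ≤ C2 * (((Y * z : ℕ) : ℝ) * Real.sqrt ((Y * z : ℕ) : ℝ)) := by
    rw [hV, hG, Finset.mul_sum, ← Finset.sum_sub_distrib]
    refine (Finset.abs_sum_le_sum_abs _ _).trans ?_
    have h1 : ∀ T ∈ W1, |(-1) ^ T.card * (nT B T X : ℝ) - X * ((-1) ^ T.card * gT B K T)| ≤
        ((2 * D : ℕ) : ℝ) ^ T.card := by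
      intro T hTW
      have h2 : (-1) ^ T.card * (nT B T X : ℝ) - X * ((-1) ^ T.card * gT B K T) =
          (-1) ^ T.card * ((nT B T X : ℝ) - X * gT B K T) := by ring
      rw [h2, abs_mul, abs_pow, abs_neg, abs_one, one_pow, one_mul]
      exact (hT T fun p hp => hPp p ((hsub1 T hTW).1 hp)).trans (hpowle T)
    refine (Finset.sum_le_sum h1).trans ?_
    refine sum_small hPp hDD (Y * z) W1 fun T hT => ⟨(hsub1 T hT).1, (hsub1 T hT).2.trans ?_⟩
    exact Nat.le_mul_of_pos_right _ hz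
  -- (c)
  have hc : |X * G - X * ∏ p ∈ P, (1 - (rB B K p : ℝ) / (p : ℝ) ^ K)| ≤
      C2 * (X * (2 / Real.sqrt Y)) := by
    have h1 : ∏ p ∈ P, (1 - (rB B K p : ℝ) / (p : ℝ) ^ K) =
        G + ∑ T ∈ W3, (-1) ^ T.card * gT B K T := by
      rw [prod_one_sub, hG, hW1, hW3, Finset.sum_filter_add_sum_filter_not]
    rw [h1, ← mul_sub, sub_add_cancel_left, abs_mul, abs_neg, abs_of_nonneg hX0]
    have h2 : |∑ T ∈ W3, (-1) ^ T.card * gT B K T| ≤ C2 * (2 / Real.sqrt Y) := by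
      refine (Finset.abs_sum_le_sum_abs _ _).trans ?_
      have h3 : ∀ T ∈ W3, |(-1) ^ T.card * gT B K T| ≤
          ((2 * D : ℕ) : ℝ) ^ T.card / ((∏ p ∈ T, p : ℕ) : ℝ) ^ 2 := by
        intro T hTW
        rw [abs_mul, abs_pow, abs_neg, abs_one, one_pow, one_mul, abs_of_nonneg (gT_nonneg T)]
        refine (gT_le hr T fun p hp => hPp p ((hsub3 T hTW).1 hp)).trans ?_
        exact div_le_div_of_nonneg_right (hpowle T) (by positivity)
      exact (Finset.sum_le_sum h3).trans (sum_large hPp hDD hY W3 hsub3)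
    calc _ ≤ (X : ℝ) * (C2 * (2 / Real.sqrt Y)) := mul_le_mul_of_nonneg_left h2 hX0
      _ = _ := by ring
  have htri := abs_add_three (∑ n ∈ Finset.Icc 1 X, ∏ p ∈ P, iB B p n - V) (V - X * G)
    (X * G - X * ∏ p ∈ P, (1 - (rB B K p : ℝ) / (p : ℝ) ^ K))
  have he : (∑ n ∈ Finset.Icc 1 X, ∏ p ∈ P, iB B p n - V) + (V - X * G) +
      (X * G - X * ∏ p ∈ P, (1 - (rB B K p : ℝ) / (p : ℝ) ^ K)) =
      ∑ n ∈ Finset.Icc 1 X, ∏ p ∈ P, iB B p n -
      X * ∏ p ∈ P, (1 - (rB B K p : ℝ) / (p : ℝ) ^ K) := by ring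
  rw [he] at htri
  refine htri.trans ?_
  nlinarith

/-- the integers excluded only by primes `≥ z`. -/
theorem sieve_diff2 {D : ℕ}
    (hr : ∀ p : ℕ, p.Prime → (rB B K p : ℝ) / (p : ℝ) ^ K ≤ D / (p : ℝ) ^ 2) {X : ℕ}
    (hT : ∀ T : Finset ℕ, (∀ p ∈ T, p.Prime) → |(nT B T X : ℝ) - X * gT B K T| ≤ (D : ℝ) ^ T.card)
    (z : ℕ) (hz : 1 ≤ z) (e : ℝ) :
    |(cB B X : ℝ) - ∑ n ∈ Finset.Icc 1 X, ∏ p ∈ (Finset.range z).filter Nat.Prime, iB B p n| ≤
      D * (2 / z) * X + D * (X : ℝ) ^ (1 - e) + tB2 B e X := by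
  classical
  set w : ℝ := (X : ℝ) ^ (1 - e) with hw
  have hw0 : 0 ≤ w := Real.rpow_nonneg (Nat.cast_nonneg _) _
  set S := (Finset.Icc 1 X).filter (fun n : ℕ => ∀ p < z, p.Prime → ¬ B p n) with hS
  have hGS : ∑ n ∈ Finset.Icc 1 X, ∏ p ∈ (Finset.range z).filter Nat.Prime, iB B p n =
      (S.card : ℝ) := by
    rw [hS, Finset.card_filter]
    push_cast
    refine Finset.sum_congr rfl fun n _ => ?_
    split_ifs with h
    · refine Finset.prod_eq_one fun p hp => ?_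
      rw [Finset.mem_filter, Finset.mem_range] at hp
      have := h p hp.1 hp.2
      unfold iB
      rw [if_neg this]
    · push Not at h
      obtain ⟨p, hpz, hpp, hpd⟩ := h
      refine Finset.prod_eq_zero (i := p) ?_ ?_
      · rw [Finset.mem_filter, Finset.mem_range]
        exact ⟨hpz, hpp⟩
      · unfold iB
        rw [if_pos hpd]
  have hsub : (Finset.Icc 1 X).filter (fun n : ℕ => ∀ p : ℕ, p.Prime → ¬ B p n) ⊆ S := by
    intro n hn
    rw [Finset.mem_filter] at hn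
    rw [hS, Finset.mem_filter]
    exact ⟨hn.1, fun p _ hp => hn.2 p hp⟩
  have hcnt : cB B X =
      ((Finset.Icc 1 X).filter (fun n : ℕ => ∀ p : ℕ, p.Prime → ¬ B p n)).card := by
    unfold cB
    congr
  have hdiff : S \ (Finset.Icc 1 X).filter (fun n : ℕ => ∀ p : ℕ, p.Prime → ¬ B p n) ⊆
      (((Finset.Icc z ⌊w⌋₊).filter Nat.Prime).biUnion
        (fun p => (Finset.Icc 1 X).filter (fun n : ℕ => ∀ q ∈ ({p} : Finset ℕ), B q n))) ∪
      ((Finset.Icc 1 X).filter (fun n : ℕ => ∃ p : ℕ, p.Prime ∧ w < p ∧ B p n)) := by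
    intro n hn
    rw [Finset.mem_sdiff, hS, Finset.mem_filter] at hn
    obtain ⟨⟨hnI, hnz⟩, hnot⟩ := hn
    have h1 : ¬ ∀ p : ℕ, p.Prime → ¬ B p n := fun h => hnot (Finset.mem_filter.mpr ⟨hnI, h⟩)
    push Not at h1
    obtain ⟨p, hpp, hpd⟩ := h1
    have hzp : z ≤ p := by
      by_contra hlt
      exact hnz p (by omega) hpp hpd
    rw [Finset.mem_union]
    by_cases hpX : (p : ℝ) ≤ w
    · left
      rw [Finset.mem_biUnion]
      refine ⟨p, ?_, ?_⟩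
      · rw [Finset.mem_filter, Finset.mem_Icc]
        exact ⟨⟨hzp, Nat.le_floor hpX⟩, hpp⟩
      · rw [Finset.mem_filter]
        refine ⟨hnI, fun q hq => ?_⟩
        rw [Finset.mem_singleton] at hq
        rwa [hq]
    · right
      rw [Finset.mem_filter]
      exact ⟨hnI, p, hpp, not_le.1 hpX, hpd⟩
  have htailc : tB2 B e X = ((Finset.Icc 1 X).filter
        (fun n : ℕ => ∃ p : ℕ, p.Prime ∧ w < p ∧ B p n)).card := by
    unfold tB2
    congr
  have hnc : ∀ p, nT B {p} X =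
      ((Finset.Icc 1 X).filter (fun n : ℕ => ∀ q ∈ ({p} : Finset ℕ), B q n)).card := by
    intro p
    unfold nT
    congr
  have hcard1 : S.card ≤ cB B X +
      (∑ p ∈ (Finset.Icc z ⌊w⌋₊).filter Nat.Prime, nT B {p} X) + tB2 B e X := by
    have h1 := Finset.card_sdiff_add_card_eq_card hsub
    have h2 := (Finset.card_le_card hdiff).trans (Finset.card_union_le _ _)
    have h3 := Finset.card_biUnion_le (s := (Finset.Icc z ⌊w⌋₊).filter Nat.Prime)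
      (t := fun p => (Finset.Icc 1 X).filter (fun n : ℕ => ∀ q ∈ ({p} : Finset ℕ), B q n))
    rw [← htailc] at h2
    rw [← hcnt] at h1
    rw [Finset.sum_congr rfl fun p _ => hnc p]
    omega
  have hcard2 : cB B X ≤ S.card := by
    rw [hcnt]
    exact Finset.card_le_card hsub
  have hmid : (∑ p ∈ (Finset.Icc z ⌊w⌋₊).filter Nat.Prime, (nT B {p} X : ℝ)) ≤
      D * (2 / z) * X + D * w := by
    have h1 : ∀ p ∈ (Finset.Icc z ⌊w⌋₊).filter Nat.Prime,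
        (nT B {p} X : ℝ) ≤ D * X * ((p : ℝ) ^ 2)⁻¹ + D := by
      intro p hp
      rw [Finset.mem_filter] at hp
      have h2 := (abs_le.1 (hT {p} fun q hq => by
        rw [Finset.mem_singleton] at hq
        rw [hq]
        exact hp.2)).2
      rw [gT, Finset.prod_singleton, Finset.card_singleton, pow_one] at h2
      have h3 := mul_le_mul_of_nonneg_left (hr p hp.2) (Nat.cast_nonneg (α := ℝ) X)
      have h4 : (X : ℝ) * (D / (p : ℝ) ^ 2) = D * X * ((p : ℝ) ^ 2)⁻¹ := by ring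
      linarith
    refine (Finset.sum_le_sum h1).trans ?_
    rw [Finset.sum_add_distrib, ← Finset.mul_sum, Finset.sum_const, nsmul_eq_mul]
    have h5 : ∑ p ∈ (Finset.Icc z ⌊w⌋₊).filter Nat.Prime, ((p : ℝ) ^ 2)⁻¹ ≤ 2 / z := by
      have h6 := sum_Ioo_inv_sq_le (α := ℝ) (z - 1) (⌊w⌋₊ + 1)
      have h7 : (((z - 1 : ℕ) : ℝ) + 1) = z := by
        rw [Nat.cast_sub hz]
        push_cast
        ring
      rw [h7] at h6
      refine le_trans ?_ h6
      refine Finset.sum_le_sum_of_subset_of_nonneg ?_ fun p _ _ => by positivity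
      intro p hp
      rw [Finset.mem_filter, Finset.mem_Icc] at hp
      rw [Finset.mem_Ioo]
      omega
    have h8 : (((Finset.Icc z ⌊w⌋₊).filter Nat.Prime).card : ℝ) ≤ w := by
      have h9 : ((Finset.Icc z ⌊w⌋₊).filter Nat.Prime).card ≤ ⌊w⌋₊ := by
        refine (Finset.card_filter_le _ _).trans ?_
        rw [Nat.card_Icc]
        omega
      exact (Nat.cast_le.2 h9).trans (Nat.floor_le hw0)
    calc _ ≤ D * X * (2 / z) + w * (D : ℝ) := by gcongr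
      _ = _ := by ring
  have hcard1' : (S.card : ℝ) ≤ cB B X +
      (∑ p ∈ (Finset.Icc z ⌊w⌋₊).filter Nat.Prime, (nT B {p} X : ℝ)) + tB2 B e X := by
    exact_mod_cast hcard1
  have hcard2' : (cB B X : ℝ) ≤ S.card := by exact_mod_cast hcard2
  rw [hGS, abs_le]
  have hz0 : (0 : ℝ) < z := by exact_mod_cast hz
  constructor
  · linarith
  · have : 0 ≤ D * (2 / z) * X + D * w + (tB2 B e X : ℝ) := by positivity
    linarith

open Classical in
/-- **the effective sieve with a power saving.** -/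
theorem abs_sieve_gen (hK : 2 ≤ K) (hper : ∀ p : ℕ, p.Prime → ∀ n, B p (n + p ^ K) ↔ B p n)
    {D : ℕ} {C e d : ℝ} (hC : 0 ≤ C) (he : 0 < e) (he1 : e < 1) (hd : 0 < d)
    (hr : ∀ p : ℕ, p.Prime → (rB B K p : ℝ) / (p : ℝ) ^ K ≤ D / (p : ℝ) ^ 2)
    (hT : ∀ T : Finset ℕ, (∀ p ∈ T, p.Prime) → ∀ X : ℕ,
      |(((Finset.Icc 1 X).filter (fun n => ∀ p ∈ T, B p n)).card : ℝ) -
        X * ∏ p ∈ T, ((rB B K p : ℝ) / (p : ℝ) ^ K)| ≤ (D : ℝ) ^ T.card)
    (hlt : ∀ p : ℕ, p.Prime → rB B K p < p ^ K)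
    (htail : ∀ X : ℕ, 1 ≤ X → (tB2 B e X : ℝ) ≤ C * (X : ℝ) ^ (1 - d)) :
    ∃ d' C' : ℝ, 0 < d' ∧ ∀ X : ℕ, 1 ≤ X →
      |(cB B X : ℝ) - dB B K * X| ≤ C' * (X : ℝ) ^ (1 - d') := by
  set D' : ℕ := D + 1 with hD'
  have hD1 : 1 ≤ D' := by omega
  have hDD' : (D : ℝ) ≤ D' := by rw [hD']; push_cast; linarith
  have hD0 : (0 : ℝ) ≤ D := Nat.cast_nonneg _
  have hr' : ∀ p : ℕ, p.Prime → (rB B K p : ℝ) / (p : ℝ) ^ K ≤ D' / (p : ℝ) ^ 2 :=
    fun p hp => (hr p hp).trans (div_le_div_of_nonneg_right hDD' (by positivity))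
  have hT' : ∀ X : ℕ, ∀ T : Finset ℕ, (∀ p ∈ T, p.Prime) →
      |(nT B T X : ℝ) - X * gT B K T| ≤ (D' : ℝ) ^ T.card := fun X T h =>
    (hT T h X).trans (pow_le_pow_left₀ hD0 hDD' _)
  obtain ⟨-, -, hz⟩ := dB_spec (B := B) (K := K) (D := (D' : ℝ)) (Nat.cast_nonneg _) hlt hr'
  set C2 : ℝ := ((2 * D' : ℕ) : ℝ) ^ ((2 * D') ^ 2) with hC2
  have hC20 : 0 ≤ C2 := by positivity
  set d' : ℝ := min (1 / 6) (min e d) with hd'
  have hd'0 : 0 < d' := lt_min (by norm_num) (lt_min he hd)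
  refine ⟨d', 20 * C2 + 5 * D' + C, hd'0, ?_⟩
  intro X hX
  have hX1 : (1 : ℝ) ≤ X := by exact_mod_cast hX
  have hX0 : (0 : ℝ) < X := by linarith
  set z : ℕ := ⌈(X : ℝ) ^ (1 / 6 : ℝ)⌉₊ with hzd
  set Y : ℕ := ⌈(X : ℝ) ^ (1 / 3 : ℝ)⌉₊ with hYd
  have h6 : (1 : ℝ) ≤ (X : ℝ) ^ (1 / 6 : ℝ) := Real.one_le_rpow hX1 (by norm_num)
  have h3 : (1 : ℝ) ≤ (X : ℝ) ^ (1 / 3 : ℝ) := Real.one_le_rpow hX1 (by norm_num)
  have hz1 : 1 ≤ z := Nat.one_le_iff_ne_zero.2 (by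
    rw [hzd, Ne, Nat.ceil_eq_zero]; linarith)
  have hY1 : 1 ≤ Y := Nat.one_le_iff_ne_zero.2 (by
    rw [hYd, Ne, Nat.ceil_eq_zero]; linarith)
  have hzl : (X : ℝ) ^ (1 / 6 : ℝ) ≤ z := Nat.le_ceil _
  have hYl : (X : ℝ) ^ (1 / 3 : ℝ) ≤ Y := Nat.le_ceil _
  have hzu : (z : ℝ) ≤ 2 * (X : ℝ) ^ (1 / 6 : ℝ) := by
    have := Nat.ceil_lt_add_one (show (0 : ℝ) ≤ (X : ℝ) ^ (1 / 6 : ℝ) by positivity)
    rw [← hzd] at this
    linarith
  have hYu : (Y : ℝ) ≤ 2 * (X : ℝ) ^ (1 / 3 : ℝ) := by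
    have := Nat.ceil_lt_add_one (show (0 : ℝ) ≤ (X : ℝ) ^ (1 / 3 : ℝ) by positivity)
    rw [← hYd] at this
    linarith
  have hz0 : (0 : ℝ) < z := by linarith
  have hY0 : (0 : ℝ) < Y := by linarith
  -- the target
  set Q : ℝ := (X : ℝ) ^ (1 - d') with hQ
  have hQ0 : 0 < Q := Real.rpow_pos_of_pos hX0 _
  have hle : ∀ a : ℝ, d' ≤ a → (X : ℝ) ^ (1 - a) ≤ Q := fun a ha =>
    Real.rpow_le_rpow_of_exponent_le hX1 (by linarith)
  have hQ6 : (X : ℝ) ^ (1 - 1 / 6 : ℝ) ≤ Q := hle _ (min_le_left _ _)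
  have hQe : (X : ℝ) ^ (1 - e) ≤ Q := hle _ ((min_le_right _ _).trans (min_le_left _ _))
  have hQd : (X : ℝ) ^ (1 - d) ≤ Q := hle _ ((min_le_right _ _).trans (min_le_right _ _))
  have hXz : (X : ℝ) / z ≤ Q := by
    refine le_trans ?_ hQ6
    rw [div_le_iff₀ hz0]
    calc (X : ℝ) = (X : ℝ) ^ (1 - 1 / 6 : ℝ) * (X : ℝ) ^ (1 / 6 : ℝ) := by
          rw [← Real.rpow_add hX0]; norm_num
      _ ≤ _ := by gcongr
  have hXY : (X : ℝ) / Real.sqrt Y ≤ Q := by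
    refine le_trans ?_ hQ6
    have hsY : 0 < Real.sqrt Y := Real.sqrt_pos.2 hY0
    rw [div_le_iff₀ hsY]
    have h1 : (X : ℝ) ^ (1 / 6 : ℝ) ≤ Real.sqrt Y := by
      refine Real.le_sqrt_of_sq_le ?_
      rw [← Real.rpow_natCast, ← Real.rpow_mul hX0.le]
      norm_num
      norm_num at hYl
      exact hYl
    calc (X : ℝ) = (X : ℝ) ^ (1 - 1 / 6 : ℝ) * (X : ℝ) ^ (1 / 6 : ℝ) := by
          rw [← Real.rpow_add hX0]; norm_num
      _ ≤ _ := by gcongr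
  have hYz : ((Y * z : ℕ) : ℝ) * Real.sqrt ((Y * z : ℕ) : ℝ) ≤ 8 * Q := by
    have h1 : ((Y * z : ℕ) : ℝ) ≤ 4 * (X : ℝ) ^ (1 / 2 : ℝ) := by
      push_cast
      calc (Y : ℝ) * z ≤ (2 * (X : ℝ) ^ (1 / 3 : ℝ)) * (2 * (X : ℝ) ^ (1 / 6 : ℝ)) := by gcongr
        _ = 4 * ((X : ℝ) ^ (1 / 3 : ℝ) * (X : ℝ) ^ (1 / 6 : ℝ)) := by ring
        _ = 4 * (X : ℝ) ^ (1 / 2 : ℝ) := by rw [← Real.rpow_add hX0]; norm_num
    have h2 : Real.sqrt ((Y * z : ℕ) : ℝ) ≤ 2 * (X : ℝ) ^ (1 / 4 : ℝ) := by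
      refine Real.sqrt_le_iff.2 ⟨by positivity, h1.trans (le_of_eq ?_)⟩
      rw [mul_pow, ← Real.rpow_natCast ((X : ℝ) ^ (1 / 4 : ℝ)), ← Real.rpow_mul hX0.le]
      norm_num
    calc ((Y * z : ℕ) : ℝ) * Real.sqrt ((Y * z : ℕ) : ℝ) ≤
        (4 * (X : ℝ) ^ (1 / 2 : ℝ)) * (2 * (X : ℝ) ^ (1 / 4 : ℝ)) := by gcongr
      _ = 8 * ((X : ℝ) ^ (1 / 2 : ℝ) * (X : ℝ) ^ (1 / 4 : ℝ)) := by ring
      _ = 8 * (X : ℝ) ^ (3 / 4 : ℝ) := by rw [← Real.rpow_add hX0]; norm_num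
      _ ≤ 8 * Q := by
          have : (X : ℝ) ^ (3 / 4 : ℝ) ≤ (X : ℝ) ^ (1 - 1 / 6 : ℝ) :=
            Real.rpow_le_rpow_of_exponent_le hX1 (by norm_num)
          linarith
  -- the pieces
  set P := (Finset.range z).filter Nat.Prime with hP
  have hPp : ∀ p ∈ P, p.Prime ∧ p ≤ z := fun p hp => by
    rw [hP, Finset.mem_filter, Finset.mem_range] at hp
    exact ⟨hp.2, hp.1.le⟩
  have e1 := sieve_main hD1 hr' (hT' X) hPp hY1 hz1
  have e2 := hz z hz1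
  have e3 := sieve_diff2 hr' (hT' X) z hz1 e
  have e4 := htail X hX
  have hprod : ∏ n ∈ Finset.range z, lB B K n =
      ∏ p ∈ P, (1 - (rB B K p : ℝ) / (p : ℝ) ^ K) := by
    rw [hP, Finset.prod_filter]
    refine Finset.prod_congr rfl fun n _ => ?_
    unfold lB
    rfl
  rw [hprod] at e2
  set s1 := ∑ n ∈ Finset.Icc 1 X, ∏ p ∈ P, iB B p n with hs1
  set p1 := ∏ p ∈ P, (1 - (rB B K p : ℝ) / (p : ℝ) ^ K) with hp1
  have f1 : |s1 - X * p1| ≤ 20 * C2 * Q := by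
    refine e1.trans ?_
    have g1 : (X : ℝ) * (2 / Real.sqrt Y) = 2 * (X / Real.sqrt Y) := by ring
    rw [g1]
    calc 2 * (C2 * (2 * ((X : ℝ) / Real.sqrt Y) + ((Y * z : ℕ) : ℝ) *
        Real.sqrt ((Y * z : ℕ) : ℝ))) ≤ 2 * (C2 * (2 * Q + 8 * Q)) := by gcongr
      _ = 20 * C2 * Q := by ring
  have f2 : |(X : ℝ) * p1 - dB B K * X| ≤ 2 * D' * Q := by
    have : (X : ℝ) * p1 - dB B K * X = X * (p1 - dB B K) := by ring
    rw [this, abs_mul, abs_of_pos hX0]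
    calc (X : ℝ) * |p1 - dB B K| ≤ X * (D' * (2 / z)) := by gcongr
      _ = 2 * D' * (X / z) := by ring
      _ ≤ 2 * D' * Q := by gcongr
  have f3 : |(cB B X : ℝ) - s1| ≤ (3 * D' + C) * Q := by
    refine e3.trans ?_
    have g1 : (D' : ℝ) * (2 / z) * X ≤ 2 * D' * Q := by
      calc (D' : ℝ) * (2 / z) * X = 2 * D' * (X / z) := by ring
        _ ≤ 2 * D' * Q := by gcongr
    have g2 : (D' : ℝ) * (X : ℝ) ^ (1 - e) ≤ D' * Q := by gcongr
    have g3 : C * (X : ℝ) ^ (1 - d) ≤ C * Q := by gcongr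
    linarith
  calc |(cB B X : ℝ) - dB B K * X|
      = |((cB B X : ℝ) - s1) + (s1 - X * p1) + (X * p1 - dB B K * X)| := by
        congr 1
        ring
    _ ≤ |(cB B X : ℝ) - s1| + |s1 - X * p1| + |X * p1 - dB B K * X| := abs_add_three _ _ _
    _ ≤ (20 * C2 + 5 * D' + C) * Q := by linarith

end

end Vale.Agent.P018.H867S
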